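import Vale.Agent.P198.Base
import Vale.Agent.P198.W.Defs
import Vale.Agent.P198.W.Weyl
import Vale.Agent.P198.W.Hol
import Vale.Agent.P198.W.Const
import Vale.Agent.P198.W.Dens
import Vale.Agent.P198.W.Log
import Vale.Agent.P198.W.Half

/-! # P198 block W: analysis in the plane (export point): `grad2`, `weyl`, `hol_or_anti`,
`const_of_harm`, `ae_dens`, `logcut`, `halfcut`. -/
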